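import Vale.Agent.P365.T2.H394.LateGen
import Vale.Agent.P365.T2.H213.Spec
import Vale.Agent.P365.T2.SeqF795
import Vale.Agent.P365.V4.KState685
import Vale.Agent.P365.T2.H135.ChoiceF
import Vale.Agent.P365.T2.H692.Ramp

/-!
# P365-T2, B6: the energy of the ramp in the worlds with the leads

`late_lead`: `KTop`, `DSmall` ⇒ for every `θ > 0` one first radius `rs`, and for every large `k` a
number `I` of families: on the torus `N = 32 * 2^k`, floor `b = (1 / 2^k)^C`, leads `prT N c (2^k)` at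
the movable sites, the energy of the ramp is at most `θ`.
-/

set_option linter.all false

namespace P365T2.H394

open P365L P365O P365T1 P365L.TL Matrix Complex MeasureTheory Filter Topology Set
open Vale.Agent.P365.J376 P365T2.SeqG P365T2.SeqF P365T2.ConcG P365V4.Free P365T2.H213
open P365T2.H692 P365CUL
open P365T1.Conc (tau0)
open P365V4.K685 (CauC CauC_nonneg cau2_CauC)
open scoped ComplexConjugate ENNReal

theorem fact8 : Fact (2 ≤ 8) := ⟨by norm_num⟩

/-! ### comparison of the world with leads and the homogeneous world -/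

section cmp

variable {lam E : ℝ} {yf : ℕ → ℤ × ℤ} {Vsf : ℕ → ℤ × ℤ → ℝ} {rs I : ℕ} {N : ℕ} [NeZero N]
  {b b' : ℝ} {fl : (PP 8 yf rs I).Lb → Tor N → ℝ}

/-- static profiles: difference of the floors -/
theorem us_world (i : ℕ) (l : Tor N → (PP 8 yf rs I).Lb) (x : Tor N) :
    (World lam yf Vsf rs I N b fl b').us i l x =
      (World lam yf Vsf rs I N b (fun _ _ => b) b).us i l x + (fl (l x) x - b) := by
  show fl (l x) x + _ = b + _ + (fl (l x) x - b)
  have : ∀ S : ℝ, fl (l x) x + S = b + S + (fl (l x) x - b) := fun S => by ring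
  exact this _

theorem Ws_world (i : ℕ) (l : Tor N → (PP 8 yf rs I).Lb) (x : Tor N) :
    (World lam yf Vsf rs I N b fl b').Ws i l x =
      (World lam yf Vsf rs I N b (fun _ _ => b) b).Ws i l x := rfl

/-- the leads are small against the moving absorption of stage `i + 1` -/
theorem lead_cmp (hW : (World lam yf Vsf rs I N b (fun _ _ => b) b).Ok (nuL lam)) {i : ℕ}
    (hi : i ≤ I) {τ δ : ℝ} (hδ : δ ≤ Real.exp (-τ) * (e0S 8 rs i * Real.exp (-(aS 8 rs i))))
    (h0 : ∀ k x, b ≤ fl k x) (h1 : ∀ k x, fl k x ≤ b + δ)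
    (h2 : ∀ k x, ¬ (PP 8 yf rs I).mov k → fl k x = b) (f : Unit → Tor N → ℝ)
    (hp : ∀ k, 0 ≤ pS 8 yf rs I k) (hpr : ∀ k, IsProbabilityMeasure (nuD 8 lam yf Vsf rs I k)) :
    PhiG (AT N) (pS 8 yf rs I) (nuD 8 lam yf Vsf rs I) E f
        (eT ((World lam yf Vsf rs I N b fl b').us (i + 1))
          ((World lam yf Vsf rs I N b fl b').Ws (i + 1)) τ) ≤
      16 * PhiG (AT N) (pS 8 yf rs I) (nuD 8 lam yf Vsf rs I) E f
        (eT ((World lam yf Vsf rs I N b (fun _ _ => b) b).us (i + 1))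
          ((World lam yf Vsf rs I N b (fun _ _ => b) b).Ws (i + 1)) τ) := by
  haveI := hpr
  haveI := fact8
  have key : ∀ e e' : (Tor N → (PP 8 yf rs I).Lb) → Tor N → ℝ, (∀ l x, 0 < e l x) →
      (∀ l x, e' l x = e l x + (fl (l x) x - b)) → (∀ l x, fl (l x) x - b ≤ e l x) →
      PhiG (AT N) (pS 8 yf rs I) (nuD 8 lam yf Vsf rs I) E f e' ≤
        16 * PhiG (AT N) (pS 8 yf rs I) (nuD 8 lam yf Vsf rs I) E f e := by
    intro e e' g0 g1 g2
    refine P365V4.Pert77.PhiG_le_sixteen (AT_symm N) hp E f g0 (fun l x => ?_) (fun l x => ?_)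
    · rw [g1]
      linarith [g0 l x, h0 (l x) x]
    · rw [g1]
      linarith [g2 l x]
  set D := World lam yf Vsf rs I N b (fun _ _ => b) b with hD
  have hpos : ∀ (l : Tor N → (PP 8 yf rs I).Lb) (x : Tor N),
      0 < eT (D.us (i + 1)) (D.Ws (i + 1)) τ l x := fun l x =>
    eT_pos hW.b_pos (fun l x => hW.us_ge (i + 1) l x)
      (fun l x => hW.toOk.Ws_nonneg (show i + 1 ≤ I + 1 by omega) l x) τ l x
  have e1 : ∀ (l : Tor N → (PP 8 yf rs I).Lb) (x : Tor N),
      eT ((World lam yf Vsf rs I N b fl b').us (i + 1))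
          ((World lam yf Vsf rs I N b fl b').Ws (i + 1)) τ l x =
        eT (D.us (i + 1)) (D.Ws (i + 1)) τ l x + (fl (l x) x - b) := by
    intro l x
    show (World lam yf Vsf rs I N b fl b').us (i + 1) l x +
      Real.exp (-τ) * (World lam yf Vsf rs I N b fl b').Ws (i + 1) l x =
      D.us (i + 1) l x + Real.exp (-τ) * D.Ws (i + 1) l x + (fl (l x) x - b)
    rw [us_world, Ws_world]
    ring
  have e2 : ∀ (l : Tor N → (PP 8 yf rs I).Lb) (x : Tor N),
      fl (l x) x - b ≤ eT (D.us (i + 1)) (D.Ws (i + 1)) τ l x := by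
    intro l x
    by_cases hm : (PP 8 yf rs I).mov (l x)
    · have hu : 0 ≤ D.us (i + 1) l x := hW.b_pos.le.trans (hW.us_ge (i + 1) l x)
      have hw : e0S 8 rs i * Real.exp (-(aS 8 rs i)) ≤ D.Ws (i + 1) l x := by
        by_cases hc : D.cen i l x
        · refine le_trans ?_ (hW.toOk.Ws_cen hi hc).1
          show e0S 8 rs i * Real.exp (-(aS 8 rs i)) ≤ e0S 8 rs i
          exact mul_le_of_le_one_right (e0S_pos (β := 8) rs i).le
            (Real.exp_le_one_iff.2 (by linarith [aS_nonneg (β := 8) rs i]))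
        · exact (hW.toOk.Ws_bulk hi hm hc).1
      have h3 := mul_le_mul_of_nonneg_left hw (Real.exp_pos (-τ)).le
      have h4 := h1 (l x) x
      show fl (l x) x - b ≤ D.us (i + 1) l x + Real.exp (-τ) * D.Ws (i + 1) l x
      linarith
    · rw [h2 _ _ hm, sub_self]
      exact (hpos l x).le
  exact key _ _ hpos e1 e2

end cmp

theorem prT_le {N : ℕ} [NeZero N] {c : ℝ} (hc : 0 ≤ c) (m : ℕ) (y : Tor N) :
    prT N c m y ≤ c / m := by
  rcases Nat.eq_zero_or_pos m with rfl | hm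
  · unfold prT
    rw [if_neg (by omega), if_neg (by omega)]
    simp
  have hm' : (0 : ℝ) < m := by exact_mod_cast hm
  unfold prT
  split_ifs
  · exact le_rfl
  · push_cast
    exact div_le_div_of_nonneg_left hc hm' (by linarith)
  · positivity

/-- the numbers at the end -/
theorem final_num {θ ε : ℝ} (hθ : 0 < θ) (hε0 : 0 ≤ ε) (hε1 : ε ≤ 1) (hε : ε ≤ θ / 5000) :
    16 * ((16 * (1024 / 6 * (θ / 300000)) + 64) * Real.exp ε - 64) ≤ θ := by
  have h2 : Real.exp ε ≤ 1 + 2 * ε := by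
    have h3 : |ε| ≤ 1 := by rw [abs_of_nonneg hε0]; exact hε1
    have h4 := Real.abs_exp_sub_one_le h3
    rw [abs_of_nonneg hε0] at h4
    linarith [le_abs_self (Real.exp ε - 1)]
  have h5 : (16 * (1024 / 6 * (θ / 300000)) + 64) * Real.exp ε ≤
      (16 * (1024 / 6 * (θ / 300000)) + 64) * (1 + 2 * ε) :=
    mul_le_mul_of_nonneg_left h2 (by positivity)
  have h6 : θ * ε ≤ θ * 1 := mul_le_mul_of_nonneg_left hε1 hθ.le
  nlinarith

open Classical in
/-- the floor with the leads -/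
noncomputable def flL (yf : ℕ → ℤ × ℤ) (rs I N : ℕ) [NeZero N] (b c : ℝ) (m : ℕ)
    (k : (PP 8 yf rs I).Lb) (x : Tor N) : ℝ :=
  b + if (PP 8 yf rs I).mov k then prT N c m x else 0

open Classical in
/-- **B6: the energy of the ramp with floor and leads** -/
theorem late_lead {lam E : ℝ} {yf : ℕ → ℤ × ℤ} {Vsf : ℕ → ℤ × ℤ → ℝ} (hlam : 0 < lam)
    (hKT : KTop lam E yf Vsf) (hDS : DSmall lam E yf Vsf) {c : ℝ} (hc : 0 ≤ c) {C : ℕ}
    (hC : 1 ≤ C) {θ : ℝ} (hθ : 0 < θ) :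
    ∃ rs : ℕ, 2 ≤ rs ∧ ∃ K : ℕ, ∀ k, K ≤ k → ∃ I : ℕ, AdmS 8 lam yf Vsf rs I ∧
      ∀ (N : ℕ) [NeZero N], N = 32 * 2 ^ k →
        PhiG (AT N) (pS 8 yf rs I) (nuD 8 lam yf Vsf rs I) E (fun _ : Unit => ramp N (2 ^ k))
          (fun l x => (1 / 2 ^ k : ℝ) ^ C +
            if (PP 8 yf rs I).mov (l x) then prT N c (2 ^ k) x else 0) ≤ θ := by
  haveI := fact8
  obtain ⟨R1, hR1, hy, hK⟩ := hKT 42
  obtain ⟨R2, hR2, hD⟩ := hDS
  obtain ⟨j, hjd⟩ : ∃ j, j = max R1 R2 := ⟨_, rfl⟩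
  have hj : 1 ≤ j := by rw [hjd]; exact le_trans (by omega) (le_max_left R1 R2)
  have hj2 : j < 2 ^ j := Nat.lt_two_pow_self
  obtain ⟨rs, hrsd⟩ : ∃ rs, rs = 2 ^ j := ⟨_, rfl⟩
  have hrsR1 : R1 ≤ rs := by
    have := le_max_left R1 R2
    omega
  have hrsR2 : R2 ≤ rs := by
    have := le_max_right R1 R2
    omega
  have hrs : 2 ≤ rs := hR1.trans hrsR1
  have hC0 := CauC_nonneg lam E
  obtain ⟨ε, hεd⟩ : ∃ ε : ℝ, ε = min 1 (θ / 5000) := ⟨_, rfl⟩
  have hε0 : 0 < ε := by rw [hεd]; positivity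
  have hε1 : ε ≤ 1 := by rw [hεd]; exact min_le_left _ _
  have hε2 : ε ≤ θ / 5000 := by rw [hεd]; exact min_le_right _ _
  obtain ⟨i₁, hi₁⟩ := exists_late_lin (β := 8) (K := 42) (by norm_num) (ε := ε)
    (C := 30 * CauC lam E) hε0 (by positivity)
  obtain ⟨i₀, hi₀⟩ := hD rs hrsR2 (θ / 300000) (by positivity)
  obtain ⟨i, hid⟩ : ∃ i, i = max i₀ i₁ := ⟨_, rfl⟩
  have hii0 : i₀ ≤ i := by rw [hid]; exact le_max_left _ _
  have hii1 : i₁ ≤ i := by rw [hid]; exact le_max_right _ _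
  obtain ⟨K1, hK1⟩ := P365T2.H135.choiceF 8 hj c C (i + 2)
  rw [← hrsd] at hK1
  obtain ⟨em, hem⟩ : ∃ em : ℝ, em = Real.exp (-(Sgood rs i)) *
    (e0S 8 rs i * Real.exp (-(aS 8 rs i))) := ⟨_, rfl⟩
  have hem0 : 0 < em := by
    rw [hem]
    have := e0S_pos (β := 8) rs i
    positivity
  obtain ⟨K2, hK2⟩ := exists_nat_ge (c / em)
  refine ⟨rs, hrs, max K1 K2, fun k hk => ?_⟩
  have hkK1 : K1 ≤ k := (le_max_left _ _).trans hk
  have hkK2 : K2 ≤ k := (le_max_right _ _).trans hk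
  obtain ⟨I, hiI, hdvd, hI1, hI2, hb1, hb2⟩ := hK1 k hkK1
  obtain ⟨hadm, hworld⟩ := hK rs hrsR1 I
  refine ⟨I, hadm, fun N _ hN => ?_⟩
  have h2k : (0 : ℝ) < 2 ^ k := by positivity
  have h2k1 : (1 : ℝ) / 2 ^ k ≤ 1 := by
    rw [div_le_one h2k]
    exact one_le_pow₀ (by norm_num)
  have hck : c / 2 ^ k ≤ em := by
    have h1 : (K2 : ℝ) ≤ k := by exact_mod_cast hkK2
    have h2 : (k : ℝ) ≤ 2 ^ k := by exact_mod_cast (Nat.lt_two_pow_self (n := k)).le
    have h3 : c / em ≤ 2 ^ k := hK2.trans (h1.trans h2)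
    rw [div_le_iff₀ hem0] at h3
    rw [div_le_iff₀ h2k]
    linarith
  obtain ⟨b, hbd⟩ : ∃ b : ℝ, b = (1 / 2 ^ k : ℝ) ^ C := ⟨_, rfl⟩
  have hb0 : 0 < b := by rw [hbd]; positivity
  have hbk : b ≤ 1 / 2 ^ k := by
    rw [hbd]
    exact pow_le_of_le_one (by positivity) h2k1 (by omega)
  have hbe := hb1 b hbk
  have hbE := hb2 b hbd.ge
  have hc2k : 0 ≤ c / 2 ^ k := by positivity
  have hNr : (N : ℝ) = 32 * 2 ^ k := by rw [hN]; push_cast; ring
  have hNge : Real.exp (rr 8 rs I : ℝ) ≤ N := by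
    have h1 : (2 : ℝ) * (rr 8 rs I : ℝ) ≤ k := by exact_mod_cast hI1
    have hl2 : (0.69 : ℝ) ≤ Real.log 2 := by
      have := Real.log_two_gt_d9
      linarith
    have h3 : Real.exp (rr 8 rs I : ℝ) ≤ 2 ^ k := by
      have h4 : (2 : ℝ) ^ k = Real.exp (k * Real.log 2) := by
        rw [← Real.log_pow, Real.exp_log h2k]
      rw [h4]
      refine Real.exp_le_exp.2 ?_
      have h5 : (0 : ℝ) ≤ k := Nat.cast_nonneg k
      nlinarith
    rw [hNr]
    linarith
  have hdvdN : ∀ i ≤ I, mS 8 rs i ∣ N := fun i hi => by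
    rw [hN]
    exact (hdvd i hi).mul_left _
  have hcpT : ∀ x : Tor N, prT N c (2 ^ k) x ≤ c / 2 ^ k := fun x => by
    have := prT_le hc (2 ^ k) x
    push_cast at this
    exact this
  have hfl0 : FlOk yf rs I N b (fun _ _ => b) b :=
    ⟨hdvdN, hNge, hb0, hbE, by linarith, fun _ _ => le_rfl, fun _ _ => le_rfl⟩
  have hfa : ∀ (q : (PP 8 yf rs I).Lb) (x : Tor N), b ≤ flL yf rs I N b c (2 ^ k) q x := by
    intro q x
    unfold flL
    split_ifs
    · linarith [P365T2.H692.prT_nonneg hc (2 ^ k) x]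
    · linarith
  have hfb : ∀ (q : (PP 8 yf rs I).Lb) (x : Tor N),
      flL yf rs I N b c (2 ^ k) q x ≤ b + c / 2 ^ k := by
    intro q x
    unfold flL
    split_ifs
    · linarith [hcpT x]
    · linarith
  have hfl1 : FlOk yf rs I N b (flL yf rs I N b c (2 ^ k)) (b + c / 2 ^ k) :=
    ⟨hdvdN, hNge, hb0, hbE, hbe, hfa, hfb⟩
  obtain ⟨hW0, -⟩ := hworld N b (fun _ _ => b) b hfl0
  obtain ⟨hW1, hub⟩ := hworld N b (flL yf rs I N b c (2 ^ k)) (b + c / 2 ^ k) hfl1
  obtain ⟨τ, hτ, hsm⟩ := hi₀ i hii0 I hiI N b hfl0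
  have hp : ∀ q, 0 ≤ pS 8 yf rs I q := fun q => (hadm.pL_pos q).le
  have hpr : ∀ q, IsProbabilityMeasure (nuD 8 lam yf Vsf rs I q) := fun q => hadm.prob q
  haveI := hpr
  have hm : 20 * 2 ^ k ≤ N := by rw [hN]; omega
  -- the start in the homogeneous world
  have s1 : PhiG (AT N) (pS 8 yf rs I) (nuD 8 lam yf Vsf rs I) E
      (fun _ : Unit => ramp N (2 ^ k))
      (eT ((World lam yf Vsf rs I N b (fun _ _ => b) b).us (i + 1))
        ((World lam yf Vsf rs I N b (fun _ _ => b) b).Ws (i + 1)) τ) ≤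
      1024 / 6 * (θ / 300000) := by
    have hpos : ∀ (l : Tor N → (PP 8 yf rs I).Lb) (x : Tor N),
        0 < eT ((World lam yf Vsf rs I N b (fun _ _ => b) b).us (i + 1))
          ((World lam yf Vsf rs I N b (fun _ _ => b) b).Ws (i + 1)) τ l x := fun l x =>
      eT_pos hW0.b_pos (fun l x => hW0.us_ge (i + 1) l x)
        (fun l x => hW0.toOk.Ws_nonneg (show i + 1 ≤ I + 1 by omega) l x) τ l x
    have h1 := PhiG_ramp_le (p := pS 8 yf rs I) (ν := nuD 8 lam yf Vsf rs I) hp E hpos hm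
    refine h1.trans ?_
    have h3 : (1 : ℝ) / (6 * ((2 ^ k : ℕ) : ℝ) ^ 2) *
        PhiG (AT N) (pS 8 yf rs I) (nuD 8 lam yf Vsf rs I) E (phi N)
          (eT ((World lam yf Vsf rs I N b (fun _ _ => b) b).us (i + 1))
            ((World lam yf Vsf rs I N b (fun _ _ => b) b).Ws (i + 1)) τ) ≤
        1 / (6 * ((2 ^ k : ℕ) : ℝ) ^ 2) * (θ / 300000 * (N : ℝ) ^ 2) :=
      mul_le_mul_of_nonneg_left hsm (by positivity)
    refine h3.trans (le_of_eq ?_)
    rw [hNr]
    push_cast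
    field_simp
    ring
  -- the start in the world with the leads
  have s2 := lead_cmp (E := E) (b' := b + c / 2 ^ k) (fl := flL yf rs I N b c (2 ^ k)) hW0
    (show i ≤ I by omega) (τ := τ) (δ := c / 2 ^ k) (by
      refine hck.trans ?_
      rw [hem]
      refine mul_le_mul_of_nonneg_right (Real.exp_le_exp.2 (by linarith [hτ.2])) ?_
      have := e0S_pos (β := 8) rs i
      positivity) hfa hfb (fun q x hq => by unfold flL; rw [if_neg hq, add_zero])
    (fun _ : Unit => ramp N (2 ^ k)) hp hpr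
  have s3 := s2.trans (mul_le_mul_of_nonneg_left s1 (by norm_num))
  -- the window
  have hSg : Sgood rs i ≤ Real.log (1 / tF 8 rs I b (i + 1)) := by
    have h1 := tF_le_ratio (β := 8) (b := b) hrs (show i < I by omega)
    have h2 := log_ratio (β := 8) rs i
    unfold Sgood
    rw [← h2]
    have h3 : 0 < tF 8 rs I b (i + 1) := tF_pos hb0 _
    refine Real.log_le_log ?_ (one_div_le_one_div_of_le h3 h1)
    have := e0S_pos (β := 8) rs i
    have := e0S_pos (β := 8) rs (i + 1)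
    positivity
  have hX : ATX N (World lam yf Vsf rs I N b (flL yf rs I N b c (2 ^ k)) (b + c / 2 ^ k)).X =
      AT N := ATX_univ N
  have hcst : (1 / (4 * ((2 ^ k : ℕ) : ℝ))) ^ 2 * (N : ℝ) ^ 2 = 64 := by
    rw [hNr]
    push_cast
    field_simp
    norm_num
  have s4 := late_gen (D := World lam yf Vsf rs I N b (flL yf rs I N b c (2 ^ k)) (b + c / 2 ^ k))
    (F := fun _ : Unit => ramp N (2 ^ k)) (E := E) (C := CauC lam E)
    (η := fun q => 1 / (rr 8 rs q : ℝ) ^ 42) (c := 64) (i := i) (τ := τ) (ε := ε)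
    (a := 16 * (1024 / 6 * (θ / 300000))) hW1
    (fun q => by positivity) (by norm_num) hC0 (fun q hq => by
      have h1 : (World lam yf Vsf rs I N b (flL yf rs I N b c (2 ^ k)) (b + c / 2 ^ k)).ν q =
          nuS lam (lam * tau0 / 2) := nuD_mov' hadm hq
      rw [h1]
      exact cau2_CauC hlam E) (show i ≤ I by omega)
    (fun q _ hq s hs => (hub q hq s hs.1.le hs.2.le).1)
    (fun q _ hq s hs => by
      have h1 := (hub q hq s hs.1.le hs.2.le).2 Unit (fun _ : Unit => ramp N (2 ^ k))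
        (1 / (4 * ((2 ^ k : ℕ) : ℝ))) (by positivity) (veclip_ramp hm)
      rw [hcst] at h1
      exact h1)
    hτ.1 (hτ.2.trans hSg) (by
      refine le_trans (le_of_eq ?_) (hi₁ rs hrs 9 (by norm_num) I b hbE
        (hbk.trans h2k1) i hii1)
      refine Finset.sum_congr rfl fun q _ => ?_
      rfl)
    (by rw [hX]; exact s3) (by positivity)
  rw [hX] at s4
  refine le_trans (le_of_eq ?_) (s4.trans (final_num hθ hε0.le hε1 hε2))
  rw [← hbd]
  rfl

end P365T2.H394
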