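import Vale.Agent.P365.V4.State548
import Vale.Agent.P365.V4.Pert77

/-!
# P365-T2: late start of the chain `V4`, from stage `i + 1`, logarithmic time `τ`, to the floor
-/

set_option linter.all false

namespace P365T2.H394

open P365L P365O P365T1 P365L.TL Matrix Complex MeasureTheory Filter Topology Set
open Vale.Agent.P365.J376
open scoped ComplexConjugate ENNReal

variable {N : ℕ} [NeZero N] {D : V4 N} {ρ : Measure ℝ} {κ : Type} [Fintype κ]
  {F : κ → Tor N → ℝ} {E C c : ℝ} {η : ℕ → ℝ}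

theorem exp_mem {t τ : ℝ} (ht : 0 < t) (h0 : 0 < τ) (hτ : τ < Real.log (1 / t)) :
    Real.exp (-τ) ∈ Ioo t 1 := by
  constructor
  · have h3 : -Real.log (1 / t) < -τ := neg_lt_neg hτ
    rw [one_div, Real.log_inv, neg_neg] at h3
    calc t = Real.exp (Real.log t) := (Real.exp_log ht).symm
      _ < Real.exp (-τ) := Real.exp_lt_exp.2 h3
  · exact Real.exp_lt_one_iff.2 (by linarith)

/-- **the chain from stage `i + 1`, time `τ`, to the end of stage `n + 1`** -/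
theorem late_chain (h : D.Ok ρ) (hη : ∀ j, 0 ≤ η j) (hc : 0 ≤ c) (hC0 : 0 ≤ C)
    (hC : ∀ k, D.mov k → Cau2 E C (D.ν k)) {i : ℕ} (hi0 : i ≤ D.I)
    (HC : ∀ j, i ≤ j → j ≤ D.I → ∀ s ∈ Ioo (D.t (j + 1)) 1,
      HC4 D.toV3 N D.X E (D.prof j s s) j (η j))
    (HB : ∀ j, i ≤ j → j ≤ D.I → ∀ s ∈ Ioo (D.t (j + 1)) 1,
      HBe D.toV3 N D.X F E (D.prof j s s) j s (η j) c)
    {τ : ℝ} (hτ0 : 0 ≤ τ) (hτ : τ ≤ Real.log (1 / D.t (i + 1))) :
    ∀ n, i ≤ n → n ≤ D.I →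
      PhiG (ATX N D.X) D.p D.ν E F (fun l x => D.us (n + 1) l x + D.t (n + 1) * D.Ws (n + 1) l x) +
          c ≤
        (PhiG (ATX N D.X) D.p D.ν E F (eT (D.us (i + 1)) (D.Ws (i + 1)) τ) + c) *
          Real.exp (∑ j ∈ Finset.Ico i (n + 1), 30 * C * η j * Real.log (1 / D.t (j + 1))) := by
  have hZ0 : 0 ≤ PhiG (ATX N D.X) D.p D.ν E F (eT (D.us (i + 1)) (D.Ws (i + 1)) τ) + c := by
    exact add_nonneg (PhiG_nonneg h.p_nonneg fun l x => (eT_pos h.b_pos
      (fun l x => h.us_ge (i + 1) l x)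
      (fun l x => h.toOk.Ws_nonneg (by omega) l x) τ l x).le) hc
  intro n hn
  induction n, hn using Nat.le_induction with
  | base =>
    intro hi
    have ht := h.t_pos (i + 1) (by omega)
    have h1 := h.growth_log F (E := E) hi (hη i) (hη i) hc hC0 hC hτ0 hτ
      (fun r hr => HC i le_rfl hi _ (exp_mem ht (hτ0.trans_lt hr.1) hr.2))
      (fun r hr => HB i le_rfl hi _ (exp_mem ht (hτ0.trans_lt hr.1) hr.2))
    rw [eT_log _ _ ht] at h1
    refine h1.trans (mul_le_mul_of_nonneg_left (Real.exp_le_exp.2 ?_) hZ0)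
    rw [Finset.sum_Ico_succ_top le_rfl, Finset.Ico_self, Finset.sum_empty, zero_add]
    have h2 : 0 ≤ 10 * C * (η i + 2 * η i) := by have := hη i; positivity
    calc 10 * C * (η i + 2 * η i) * (Real.log (1 / D.t (i + 1)) - τ)
        ≤ 10 * C * (η i + 2 * η i) * Real.log (1 / D.t (i + 1)) :=
          mul_le_mul_of_nonneg_left (by linarith) h2
      _ = _ := by ring
  | succ n hn ih =>
    intro hi
    have ht := h.t_pos (n + 1 + 1) (by omega)
    have ht1 := h.t_le (n + 1 + 1) (by omega)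
    have hlog : 0 ≤ Real.log (1 / D.t (n + 1 + 1)) := Real.log_nonneg (by
      rw [le_div_iff₀ ht]
      linarith)
    have h1 := h.growth_log F (E := E) (i := n + 1) hi (hη (n + 1)) (hη (n + 1)) hc hC0 hC le_rfl
      hlog
      (fun r hr => HC (n + 1) (by omega) hi _ (exp_mem ht hr.1 hr.2))
      (fun r hr => HB (n + 1) (by omega) hi _ (exp_mem ht hr.1 hr.2))
    have h2 : (fun l x => D.us (n + 1) l x + D.t (n + 1) * D.Ws (n + 1) l x) =
        eT (D.us (n + 1 + 1)) (D.Ws (n + 1 + 1)) 0 := by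
      rw [eT_zero]
      funext l x
      exact V4.link (by omega) l x
    have h3 := ih (by omega)
    rw [h2] at h3
    rw [eT_log _ _ ht] at h1
    rw [Finset.sum_Ico_succ_top (by omega), Real.exp_add, ← mul_assoc]
    refine h1.trans ?_
    have h4 := mul_le_mul_of_nonneg_right h3 (Real.exp_pos
      (10 * C * (η (n + 1) + 2 * η (n + 1)) * (Real.log (1 / D.t (n + 1 + 1)) - 0))).le
    refine h4.trans (le_of_eq ?_)
    congr 2
    ring

/-- **the floor at the end** -/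
theorem late_floor (h : D.Ok ρ) :
    PhiG (ATX N D.X) D.p D.ν E F (fun l x => D.β (l x) x) ≤
      16 * PhiG (ATX N D.X) D.p D.ν E F
        (fun l x => D.us (D.I + 1) l x + D.t (D.I + 1) * D.Ws (D.I + 1) l x) := by
  haveI := h.prob
  have ht := h.t_pos (D.I + 1) le_rfl
  have h0 : ∀ (l : Tor N → D.Λ) (x : Tor N), D.b ≤ D.β (l x) x := fun l x => h.floor_ge _ x
  have h1 : ∀ (l : Tor N → D.Λ) (x : Tor N), 0 ≤ D.t (D.I + 1) * D.Ws (D.I + 1) l x := fun l x =>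
    mul_nonneg ht.le (h.toOk.Ws_nonneg le_rfl l x)
  have h2 : ∀ (l : Tor N → D.Λ) (x : Tor N), D.t (D.I + 1) * D.Ws (D.I + 1) l x ≤ D.b := fun l x =>
    (mul_le_mul_of_nonneg_left (h.toOk.Ws_le le_rfl l x) ht.le).trans h.t_last
  have hb := h.b_pos
  refine P365V4.Pert77.PhiG_le_sixteen (ATX_symm N D.X) h.p_nonneg E F (fun l x => ?_)
    (fun l x => ?_) (fun l x => ?_)
  · rw [V4.us_last]
    linarith [h0 l x, h1 l x]
  · rw [V4.us_last]
    linarith [h0 l x, h2 l x]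
  · rw [V4.us_last]
    linarith [h0 l x, h1 l x]

/-- **late start**: from stage `i + 1`, time `τ`, to the floor -/
theorem late_gen (h : D.Ok ρ) (hη : ∀ j, 0 ≤ η j) (hc : 0 ≤ c) (hC0 : 0 ≤ C)
    (hC : ∀ k, D.mov k → Cau2 E C (D.ν k)) {i : ℕ} (hi : i ≤ D.I)
    (HC : ∀ j, i ≤ j → j ≤ D.I → ∀ s ∈ Ioo (D.t (j + 1)) 1,
      HC4 D.toV3 N D.X E (D.prof j s s) j (η j))
    (HB : ∀ j, i ≤ j → j ≤ D.I → ∀ s ∈ Ioo (D.t (j + 1)) 1,
      HBe D.toV3 N D.X F E (D.prof j s s) j s (η j) c)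
    {τ : ℝ} (hτ0 : 0 ≤ τ) (hτ : τ ≤ Real.log (1 / D.t (i + 1))) {ε : ℝ}
    (hε : ∑ j ∈ Finset.Ico i (D.I + 1), 30 * C * η j * Real.log (1 / D.t (j + 1)) ≤ ε) {a : ℝ}
    (ha : PhiG (ATX N D.X) D.p D.ν E F (eT (D.us (i + 1)) (D.Ws (i + 1)) τ) ≤ a) (ha0 : 0 ≤ a) :
    PhiG (ATX N D.X) D.p D.ν E F (fun l x => D.β (l x) x) ≤
      16 * ((a + c) * Real.exp ε - c) := by
  refine (late_floor h).trans (mul_le_mul_of_nonneg_left ?_ (by norm_num))
  have h1 := late_chain h hη hc hC0 hC hi HC HB hτ0 hτ D.I hi le_rfl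
  have h2 : (PhiG (ATX N D.X) D.p D.ν E F (eT (D.us (i + 1)) (D.Ws (i + 1)) τ) + c) *
      Real.exp (∑ j ∈ Finset.Ico i (D.I + 1), 30 * C * η j * Real.log (1 / D.t (j + 1))) ≤
      (a + c) * Real.exp ε := by
    refine mul_le_mul (by linarith) (Real.exp_le_exp.2 hε) (Real.exp_pos _).le (by linarith)
  linarith

end P365T2.H394
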